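import Vale.Agent.P167.N.Kit
import Vale.Agent.P167.N.H542.Q.Wt
import Vale.Agent.P167.N.H542.Q.Pc
import Vale.Agent.P167.H662.L.LDefs

/-! generated from Vale.Agent.P167.H662.L.LDefs (q < 1 port) -/

set_option autoImplicit false

namespace Vale.Agent.P167.N.H662.L

open Vale.Agent.P167.H662.L Vale.Agent.P167.H662

open Finset Filter Topology MeasureTheory

open Vale.Agent.P167 Vale.Agent.P167.BR

open Vale.Agent.P167.H542 (Geo Nr)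

open Vale.Agent.P167.H542.Q (Phs mak)

open Vale.Agent.P167.H562 (Em)

open Vale.Agent.P167.H562.GL (Nu CrossP)

open Vale.Agent.P167.H562.QM (CrossSP)

open Vale.Agent.P167.H562.SML (smf)

open Vale.Agent.P167.FKA (ArmDec)

open Vale.Agent.P167.H519 (IsLim)

open Vale.Agent.P167.H638.L (Cnt CelB cel dvf bigV)

/-- The inputs on the infinite-volume measure. -/
structure Inp (q al Ca : ℝ) (P : Measure Cfg) : Prop where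
  one : Kit q
  al0 : 0 < al
  Ca0 : 0 < Ca
  arm : ArmDec q al Ca
  lim : IsLim q P
  crs : CrossP P
  crsS : CrossSP P

/-- (L-PT) The pointwise bound. Law free; model: `H638.L.XD_sub` (L7) and `H542.Q.prod_le`. -/
def S_pt : Prop :=
  ∀ (m c : ℝ) (D Z T : Finset (ℤ × ℤ)) (p : ℤ × ℤ) (K : Set (ℤ × ℤ)) (δ d : ℝ)
    (th : Finset Ed → ℝ) (g η : ℤ × ℤ → ℝ) (ω : Cfg), Vale.Agent.P167.N.H542.Q.Phs m c D th → Geo D p K δ → 0 ≤ d →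
    d + 1 ≤ δ → (∀ z ∉ K, g z = 0) → (∀ z ∉ K, η z = 0) → ∑ z ∈ sites D, g z = 0 →
    ∑ z ∈ sites D, η z = 0 → (∃ z ∈ K, ∃ z' ∈ K, 2 * d ≤ (nm (z - z') : ℝ)) →
    (∀ ℓ, IsLoop ω ℓ → Small d ℓ → |G g ℓ| + |G η ℓ| ≤ Vale.Agent.P167.N.H542.Q.thr m) →
    (∀ ℓ, IsLoop ω ℓ → Small d ℓ → G g ℓ ≠ 0 → ∃ v ∈ vs ℓ, v ∈ Z) →
    (∀ ℓ, IsLoop ω ℓ → Small d ℓ → G η ℓ ≠ 0 → ∃ v ∈ vs ℓ, v ∈ T) →
    |XR th D p (fun z => g z + η z) ω - XR th D p g ω| ≤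
      (Real.exp (SfQ m Z (fun _ => 0) g d ω) * (c⁻¹) ^ (mak K d D ω).card) *
        (|Real.exp (SfQ m T g η d ω) - 1| + 2 * √(bigV D p η d ω))

/-- (L-SUB) The statistic at two scales. Law free; model: `H638.L.Sf_sub` (L8). -/
def S_sub : Prop :=
  ∀ (m : ℝ) (D T : Finset (ℤ × ℤ)) (p : ℤ × ℤ) (K : Set (ℤ × ℤ)) (δ d d' : ℝ)
    (g η : ℤ × ℤ → ℝ) (ω : Cfg), 0 ≤ m → Ang m → Geo D p K δ → 0 ≤ d → d + 1 ≤ δ →
    d' ≤ d → (∀ z ∉ K, η z = 0) → ∑ z ∈ sites D, η z = 0 →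
    (∃ z ∈ K, ∃ z' ∈ K, 2 * d ≤ (nm (z - z') : ℝ)) →
    (∀ ℓ, IsLoop ω ℓ → Small d ℓ → |G g ℓ| + |G η ℓ| ≤ Vale.Agent.P167.N.H542.Q.thr m) →
    |SfQ m T g η d ω - SfQ m T g η d' ω| ≤ 2 / Real.cos m * bigV D p η d' ω

/-- (L-LAY) **The layer theorem.** Model: `H638.L.layer` (L9, L10). -/
def S_lay (P : Measure Cfg) : Prop :=
  ∀ m cc c0 R B Q : ℝ, 0 ≤ m → Ang m → 0 < cc → 0 < c0 → 0 ≤ R → 0 < B → 0 < Q →
  ∀ ε > 0, ∃ w0 > 0, ∀ w, 0 < w → w < w0 → ∃ n0 : ℝ, ∀ n ≥ n0,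
    ∀ (D T : Finset (ℤ × ℤ)) (p : ℤ × ℤ) (K : Set (ℤ × ℤ)) (g : ℤ × ℤ → ℝ) (c : Ed → ℝ)
      (th : Finset Ed → ℝ) (ν : Measure Cfg), Vale.Agent.P167.N.H542.Q.Phs m cc D th →
      LayQ c0 R B Q w n D T p K g c → Nu P ν D →
      ∫ ω, |XR th D p (fun z => g z + dvf c z) ω - XR th D p g ω| ∂ν ≤ ε

end Vale.Agent.P167.N.H662.L
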