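import Vale.Agent.P167.N.Kit
import Vale.Agent.P167.N.H562.GBias
import Vale.Agent.P167.N.H662.L.LDefs
import Vale.Agent.P167.H662.L.EM3

/-! generated from Vale.Agent.P167.H662.L.EM3 (q < 1 port) -/

set_option autoImplicit false

namespace Vale.Agent.P167.N.H662.L

open Vale.Agent.P167.H662.L Vale.Agent.P167.H662

open Finset Filter Topology MeasureTheory

open Vale.Agent.P167 Vale.Agent.P167.BR Vale.Agent.P167.FK

open Vale.Agent.P167.FKA (Loc Ind ArmDec)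

open Vale.Agent.P167.H45 (gp BL BL_fin zz zz_box box_of_small nm_le nm_sub_le cl vs_nonempty
  BL_measR)

open Vale.Agent.P167.H562 (Em Em_mono)

open Vale.Agent.P167.H562.GL

open Vale.Agent.P167.H562.QM

open Vale.Agent.P167.H562.SML

open Vale.Agent.P167.H638.L (Cnt CelB cel)

/-- The bias of one cell. -/
theorem bias_cell {q al Ca : ℝ} {P : Measure Cfg} (hI : Inp q al Ca P) {x0 C1 s1 M a : ℝ}
    (hx0 : 0 < x0) (hxx : x0 ^ 2 = (1 / 2) ^ al) (hC10 : 0 < C1) (hC11 : C1 ^ 2 = 2 * Ca)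
    (hs : 0 ≤ s1) {L : ℤ} (hL : 1 ≤ L) {jk k i : ℕ} (hsN : (sN jk : ℝ) = 4 * (2 ^ i * 2 ^ k))
    {w z : ℤ × ℤ} (hz : z ∈ sS jk w) {X : Cfg → ℝ} (hXl : Loc (Bq (gp L z) (2 * L)) X)
    {K : Cfg → ℝ} (hK : Measurable K) (hK0 : ∀ ω, 0 ≤ K ω) (ha : 0 ≤ a)
    (hXK : ∀ ω, |X ω| ≤ a * K ω)
    (hM : ∀ ν, Nu P ν (sU L jk w) → Em ν (fun ω => (s1 + 1) * K ω) ≤ ENNReal.ofReal (Real.exp M))
    {ν : Measure Cfg} (hν : Nu P ν (sU L jk w)) :
    |∫ ω, X ω ∂ν - ∫ ω, X ω ∂P| ≤ a * (C1 * (2 + 4 * Real.exp M) * x0 ^ k * x0 ^ i) := by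
  obtain ⟨hQ, hal, hCa, hA, hP, hX, -⟩ := hI
  have hPp : IsProbabilityMeasure P := hP.1
  have hνp := hν.prob
  rcases ha.eq_or_lt with haz | hapos
  · have hz0 : ∀ ω, X ω = 0 := fun ω => by
      have h1 := hXK ω
      rw [← haz, zero_mul] at h1
      exact abs_eq_zero.1 (le_antisymm h1 (abs_nonneg _))
    simp only [hz0, integral_zero, sub_zero, abs_zero]
    rw [← haz, zero_mul]
  have hmono : ∀ η : Measure Cfg, Em η (fun ω => (s1 + 1) * K ω) ≤
        ENNReal.ofReal (Real.exp M) → Em η (fun ω => K ω) ≤ ENNReal.ofReal (Real.exp M) := by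
    intro η h
    refine (Em_mono fun ω => ?_).trans h
    have := mul_nonneg hs (hK0 ω)
    linarith
  have hb := bias (ε := C1 * (x0 ^ k * x0 ^ i)) hXl hK hK0
    hapos (Real.exp_pos M).le (by positivity) hXK
    (hmono ν (hM ν hν)) (hmono P (hM P (nu_self _)))
    fun F hF0 hF1 hF => by
      have hNj := sN_pos jk
      refine (Vale.Agent.P167.N.H562.GL.nu_mix hQ hA hP (x := gp L z) (r := 2 * L) (R := sN jk * L)
        (by omega) (by nlinarith) (Bq_sub_sU hL hz) hν (Finset.Subset.refl _) hF0 hF1 hF).trans ?_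
      have hLR : (0 : ℝ) < L := by exact_mod_cast (by omega : 0 < L)
      have e1 : ((2 * L : ℤ) : ℝ) / ((sN jk * L : ℤ) : ℝ) =
          2 * (L : ℝ) / (4 * (2 ^ i * 2 ^ k) * L) := by
        push_cast
        rw [hsN]
      rw [e1]
      exact rate hal hCa hxx hC11 hLR k i
  exact hb.trans (le_of_eq (by ring))

/-- **Exponential moments of the statistics of a strip, conditioned measures.** -/
theorem s_em {q al Ca : ℝ} {P : Measure Cfg} (hI : Inp q al Ca P) : S_em P := by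
  classical
  have hal := hI.al0
  have hCa := hI.Ca0
  have hP := hI.lim
  have hX := hI.crs
  have hPp : IsProbabilityMeasure P := hP.1
  set s1 : ℝ := 46656 with hs1
  have hs0 : (0 : ℝ) ≤ s1 := by norm_num
  obtain ⟨C, hC⟩ := large_genU hX s_con s_two (1 / 8) (s1 + 1) (by norm_num)
  set M : ℝ := Real.log (max C 1) with hM
  have hM0 : 0 ≤ M := Real.log_nonneg (le_max_right _ _)
  have heM : Real.exp M = max C 1 := Real.exp_log (by positivity)
  -- mixing rate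
  set x0 : ℝ := Real.sqrt ((1 / 2) ^ al) with hx
  have hx0 : 0 < x0 := Real.sqrt_pos.2 (by positivity)
  have hxx : x0 ^ 2 = (1 / 2) ^ al := Real.sq_sqrt (by positivity)
  have hx1 : x0 < 1 := by
    have h1 : ((1 : ℝ) / 2) ^ al < 1 := Real.rpow_lt_one (by norm_num) (by norm_num) hal
    rw [← hxx] at h1
    nlinarith
  set C1 : ℝ := Real.sqrt (2 * Ca) with hC1
  have hC10 : 0 < C1 := Real.sqrt_pos.2 (by positivity)
  have hC11 : C1 ^ 2 = 2 * Ca := Real.sq_sqrt (by positivity)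
  set Gc : ℝ := 2 * Real.exp M * Real.exp ((s1 + 1) * Real.exp M) with hGc
  have hGc0 : 0 ≤ Gc := by positivity
  set Γ : ℝ := 1 / (1 - √(8 / 9)) with hΓ
  have h89 := sqrt89
  have hΓ0 : 0 ≤ Γ := div_nonneg zero_le_one (by linarith)
  set Γ' : ℝ := 2 / (1 - x0) with hΓ'
  have hΓ'0 : 0 ≤ Γ' := div_nonneg (by norm_num) (by linarith)
  set Kb : ℝ := C1 * (2 + 4 * Real.exp M) with hKb
  have hKb0 : 0 < Kb := by positivity
  refine ⟨1, 9 * (5832 * Kb * 2 ^ (al / 2)) * Γ' + 4 * Gc * 9 ^ 2 * (5832 * 1296) * Γ, al / 2, one_pos, by positivity, by positivity,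
    fun κ κ₁ n h B Q t T U N φ hκ hκκ hκ1 hκn hh hB hQ' hcnt hcel hU hN hφ ht => ?_⟩
  have hNp : IsProbabilityMeasure N := hN.prob
  have hκ10 : 0 < κ₁ := lt_of_lt_of_le hκ hκκ
  have hn0 : 0 < n := by
    by_contra hcon
    have : κ * n ≤ 0 := mul_nonpos_of_nonneg_of_nonpos hκ.le (not_lt.1 hcon)
    linarith
  have hn1 : 1 ≤ n := by
    have : κ * n ≤ 1 * n := mul_le_mul_of_nonneg_right (by linarith) hn0.le
    linarith
  -- the exponent `k`
  obtain ⟨k, hk1', hk2'⟩ := exists_nat_pow_near (x := κ₁ / κ) (y := (2 : ℝ))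
    (by rw [le_div_iff₀ hκ]; linarith) (by norm_num)
  rw [le_div_iff₀ hκ] at hk1'
  rw [div_lt_iff₀ hκ] at hk2'
  set x : ℝ := κ * n with hxd
  -- number of scales
  obtain ⟨J, hJ, hJ'⟩ := Vale.Agent.P167.H562.SML.exists_J hκ hn1
  rw [← hxd] at hJ hJ'
  set Lj : ℕ → ℤ := fun j => ⌈x / 2 ^ j⌉ with hLj
  set jk : ℕ → ℕ := fun j => j + 2 * k with hjk
  set Dj : ℕ → ℤ := fun j => Lj j * sN (jk j) with hDj
  have hsN : ∀ j, (sN (jk j) : ℝ) = 4 * (2 ^ (j / 2) * 2 ^ k) := by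
    intro j
    have e : (j + 2 * k) / 2 = j / 2 + k := by omega
    simp only [hjk]
    unfold sN
    rw [e]
    push_cast
    rw [pow_add]
  have hL1 : ∀ j < J, 1 ≤ Lj j := fun j hj =>
    Int.one_le_ceil_iff.2 (by linarith [hJ' j hj])
  have hLx : ∀ j < J, (Lj j : ℝ) ≤ 2 * (x / 2 ^ j) := by
    intro j hj
    have h1 := Int.ceil_lt_add_one (x / 2 ^ j)
    have h2 := hJ' j hj
    show ((⌈x / 2 ^ j⌉ : ℤ) : ℝ) ≤ _
    linarith
  have hD1 : ∀ j < J, 1 ≤ Dj j := by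
    intro j hj
    have h1 := hL1 j hj
    have h2 := sN_pos (jk j)
    show 1 ≤ Lj j * sN (jk j)
    nlinarith
  have hDn : ∀ j < J, (Dj j : ℝ) ≤ 8 * κ₁ * n * ej j := by
    intro j hj
    show ((Lj j * sN (jk j) : ℤ) : ℝ) ≤ _
    push_cast
    rw [hsN]
    calc (Lj j : ℝ) * (4 * (2 ^ (j / 2) * 2 ^ k))
        ≤ 2 * (x / 2 ^ j) * (4 * (2 ^ (j / 2) * 2 ^ k)) :=
          mul_le_mul_of_nonneg_right (hLx j hj) (by positivity)
      _ = 8 * (2 ^ k * κ) * n * ej j := by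
          unfold ej
          rw [hxd]
          field_simp
          ring
      _ ≤ 8 * κ₁ * n * ej j := by
          refine mul_le_mul_of_nonneg_right ?_ (ej_pos j).le
          refine mul_le_mul_of_nonneg_right ?_ hn0.le
          linarith
  have hDn1 : ∀ j < J, (Dj j : ℝ) ≤ 8 * κ₁ * n := by
    intro j hj
    refine (hDn j hj).trans ?_
    have := ej_le_one j
    have h1 : 0 ≤ 8 * κ₁ * n := by positivity
    nlinarith
  set W : ℕ → Finset (ℤ × ℤ) := fun j => Vale.Agent.P167.H662.L.Wc T (Dj j) with hW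
  have hUs : ∀ j < J, ∀ w ∈ W j, sU (Lj j) (jk j) w ⊆ U := by
    intro j hj w hw v hv
    have hL0 : 0 < Lj j := by have := hL1 j hj; omega
    obtain ⟨u, hu, h1⟩ := Wc_near hL0 hw
    refine hU u hu v ?_
    have h2 := h1 v hv
    have h3 : (nm (v - u) : ℝ) ≤ 3 * (Dj j : ℝ) := by exact_mod_cast h2
    have h4 := hDn1 j hj
    have h5 : 0 < κ₁ * n := by positivity
    linarith
  have hXl : ∀ j < J, ∀ w ∈ W j, ∀ z ∈ sS (jk j) w,
      Loc (Bq (gp (Lj j) z) (2 * Lj j)) (YY T x φ j z) := by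
    intro j hj w _ z _ ω ω' hω
    refine YY_loc hJ φ j z ω ω' fun v hv => hω v ?_
    obtain ⟨h1, h2, h3, h4⟩ := hv
    have := hL1 j hj
    simp only [Bq, gp, Finset.mem_product, Finset.mem_Ico]
    simp only [hLj] at this ⊢
    refine ⟨⟨?_, ?_⟩, ?_, ?_⟩ <;> linarith
  set b0 : ℝ := B / (h * n) with hb0
  have hb00 : 0 < b0 := by positivity
  set a : ℕ → ℤ × ℤ → ℝ := fun j z => b0 * (nT T (Lj j) z : ℝ) with ha
  set K : ℕ → ℤ × ℤ → Cfg → ℝ := fun j z ω => ((BL (gp (Lj j) z) (2 * (Lj j : ℝ))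
    (1 / 8 * (2 * (Lj j : ℝ))) ω).ncard : ℝ) with hK
  have hXK : ∀ j < J, ∀ w ∈ W j, ∀ z ∈ sS (jk j) w, ∀ ω, |YY T x φ j z ω| ≤ a j z * K j z ω :=
    fun j hj w _ z _ ω => YY_nT hb00.le hJ hφ (hJ' j hj) z ω
  have hMK : ∀ j < J, ∀ w ∈ W j, ∀ z ∈ sS (jk j) w, ∀ ν, Nu P ν (sU (Lj j) (jk j) w) →
      Em ν (fun ω => (s1 + 1) * K j z ω) ≤ ENNReal.ofReal (Real.exp M) := by
    intro j hj w _ z hz ν hν
    have h1 : (1 : ℝ) ≤ Lj j := by exact_mod_cast hL1 j hj
    rw [heM]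
    exact (hC ν _ hν (gp (Lj j) z) (2 * (Lj j : ℝ)) (by linarith)
      (fun v hv => near_sub_sU (hL1 j hj) hz hv)).trans (ENNReal.ofReal_le_ofReal (le_max_left _ _))
  set y : ℕ → ℝ := fun j => Kb * x0 ^ k * x0 ^ (j / 2) with hy
  have hy0 : ∀ j, 0 < y j := fun j => by simp only [hy]; positivity
  have hbias : ∀ j < J, ∀ w ∈ W j, ∀ z ∈ sS (jk j) w, ∀ ν, Nu P ν (sU (Lj j) (jk j) w) →
      |∫ ω, YY T x φ j z ω ∂ν - ∫ ω, YY T x φ j z ω ∂P| ≤ a j z * y j := by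
    intro j hj w hw z hz ν hν
    exact bias_cell hI hx0 hxx hC10 hC11 hs0 (hL1 j hj) (hsN j) hz (hXl j hj w hw z hz)
      (H45.BL_measR _ _ _) (fun ω => by positivity) (by simp only [ha]; positivity)
      (hXK j hj w hw z hz) (hMK j hj w hw z hz) hν
  -- the sums over the super-boxes
  set A0 : ℕ → ℝ := fun j => b0 * (81 * (Q * (2 * (Dj j : ℝ)) * min (2 * (Dj j : ℝ)) h)) with hA0
  have hDR : ∀ j < J, (0 : ℝ) < Dj j := fun j hj => by exact_mod_cast (by
    have := hD1 j hj; omega : 0 < Dj j)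
  have hA00 : ∀ j < J, 0 < A0 j := by
    intro j hj
    have h1 := hDR j hj
    have h2 : 0 < min (2 * (Dj j : ℝ)) h := lt_min (by linarith) hh
    simp only [hA0]
    positivity
  have hAt : ∀ j < J, ∀ w ∈ W j, ∑ z ∈ sS (jk j) w, a j z ≤ A0 j := by
    intro j hj w hw
    simp only [ha, hA0]
    rw [← Finset.mul_sum]
    refine mul_le_mul_of_nonneg_left ?_ hb00.le
    refine (sum_nT (hL1 j hj) w).trans ?_
    refine mul_le_mul_of_nonneg_left ?_ (by norm_num)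
    have h1 := hcnt (gp (Dj j) w) (2 * Dj j) (by have := hD1 j hj; omega)
    push_cast at h1
    exact h1
  have hAn : ∀ j < J, A0 j ≤ 1296 * (B * Q * κ₁) * ej j := by
    intro j hj
    have h1 := ar_A hB hQ' hn0 hh (hDR j hj)
    simp only [hA0]
    refine h1.trans ?_
    have h2 : (Dj j : ℝ) / n ≤ 8 * κ₁ * ej j := by
      rw [div_le_iff₀ hn0]
      refine (hDn j hj).trans (le_of_eq ?_)
      ring
    calc 162 * (B * Q) * ((Dj j : ℝ) / n) ≤ 162 * (B * Q) * (8 * κ₁ * ej j) :=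
          mul_le_mul_of_nonneg_left h2 (by positivity)
      _ = _ := by ring
  have hWA0 : ∀ j < J, ((W j).card : ℝ) * A0 j ≤ 5832 * Q * (B * Q) := by
    intro j hj
    have h1 : ((W j).card : ℝ) ≤ 9 * ((cel T (Dj j)).card : ℝ) := by
      exact_mod_cast card_Wc T (Dj j)
    have h2 := hcel (Dj j) (hD1 j hj) (by
      have h3 := hDn1 j hj
      have h4 : 16 * κ₁ * n ≤ 1 * n := mul_le_mul_of_nonneg_right hκ1 hn0.le
      have h5 : 0 < κ₁ * n := by positivity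
      linarith)
    have h3 := ar_W hB hQ' hn0 hh (hDR j hj) h2
    calc ((W j).card : ℝ) * A0 j ≤ 9 * ((cel T (Dj j)).card : ℝ) * A0 j :=
          mul_le_mul_of_nonneg_right h1 (hA00 j hj).le
      _ = 9 * (((cel T (Dj j)).card : ℝ) * A0 j) := by ring
      _ ≤ 9 * (648 * Q * (B * Q)) := mul_le_mul_of_nonneg_left h3 (by norm_num)
      _ = _ := by ring
  have hmain := multiW (P := P) (N := N) J 9 (by norm_num) W code3 (fun j w => sS (jk j) w)
    (X := fun j z ω => YY T x φ j z ω) (K := K)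
    (A := fun j z => Bq (gp (Lj j) z) (2 * Lj j)) (U := fun j w => sU (Lj j) (jk j) w)
    hXl (fun j _ w _ z _ => H45.BL_measR _ _ _) (fun j _ w _ z _ ω => by positivity)
    (fun j hj w _ w' _ hne hcol z hz => by
      refine Finset.disjoint_of_subset_left ?_ (sU_disj (hL1 j hj) hne hcol)
      refine Finset.Subset.trans ?_ (Bq_sub_sU (hL1 j hj) hz)
      have hNj := sN_pos (jk j)
      have hLpos := hL1 j hj
      have h1 : 2 * Lj j ≤ sN (jk j) * Lj j := by nlinarith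
      intro v hv
      simp only [Bq, Finset.mem_product, Finset.mem_Ico] at hv ⊢
      refine ⟨⟨?_, ?_⟩, ?_, ?_⟩ <;> linarith [hv.1.1, hv.1.2, hv.2.1, hv.2.2])
    (s := s1) (M := M) (β := 5832 * Q * (B * Q) * (1296 * (B * Q * κ₁)))
    (β' := 5832 * Q * (B * Q) * (Kb * x0 ^ k)) (Γ := Γ) (Γ' := Γ') (t := t)
    (a := a) (b := fun j z => a j z * y j) (At := A0) (Bt := fun j => A0 j * y j)
    (g := fun j => √(8 / 9) ^ j) (g' := fun j => x0 ^ (j / 2))
    hs0 hM0 (fun j _ w _ z _ => by simp only [ha]; positivity) hAt hA00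
    (fun j hj w hw => by
      rw [← Finset.sum_mul]
      exact mul_le_mul_of_nonneg_right (hAt j hj w hw) (hy0 j).le)
    (fun j hj => mul_nonneg (hA00 j hj).le (hy0 j).le) hXK
    (fun j hj w hw z hz ν hν => hMK j hj w hw z hz ν (nu_trans hN hν (hUs j hj w hw)))
    (fun j hj w hw z hz ν hν => hbias j hj w hw z hz ν (nu_trans hN hν (hUs j hj w hw)))
    (fun j hj => by
      have h1 := hAn j hj
      have h2 := ej_43 j
      have h3 : √((8 : ℝ) / 9) ^ j ≤ 1 := pow_le_one₀ (by positivity) sqrt89.le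
      have h4 : 0 ≤ B * Q * κ₁ * |t| := by positivity
      calc 4 * ((9 : ℕ) : ℝ) * (4 / 3) ^ j * |t| * A0 j
          ≤ 4 * ((9 : ℕ) : ℝ) * (4 / 3) ^ j * |t| * (1296 * (B * Q * κ₁) * ej j) :=
            mul_le_mul_of_nonneg_left h1 (by positivity)
        _ = 46656 * (B * Q * κ₁ * |t|) * ((4 / 3) ^ j * ej j) := by push_cast; ring
        _ ≤ 46656 * (B * Q * κ₁ * |t|) * 1 :=
            mul_le_mul_of_nonneg_left (h2.trans h3) (by positivity)
        _ ≤ s1 := by rw [hs1]; linarith)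
    (fun j hj => by
      have h1 := hAn j hj
      have h2 := ej_43 j
      have h3 := hWA0 j hj
      have h4 := (hA00 j hj).le
      calc ((W j).card : ℝ) * A0 j ^ 2 * (4 / 3) ^ j
          = (((W j).card : ℝ) * A0 j) * (A0 j * (4 / 3) ^ j) := by ring
        _ ≤ (5832 * Q * (B * Q)) * (1296 * (B * Q * κ₁) * ej j * (4 / 3) ^ j) := by
            refine mul_le_mul h3 (mul_le_mul_of_nonneg_right h1 (by positivity)) (by positivity)
              (by positivity)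
        _ = 5832 * Q * (B * Q) * (1296 * (B * Q * κ₁)) * ((4 / 3) ^ j * ej j) := by ring
        _ ≤ _ := mul_le_mul_of_nonneg_left h2 (by positivity))
    (fun j hj => by
      have h3 := hWA0 j hj
      calc ((W j).card : ℝ) * (A0 j * y j) = (((W j).card : ℝ) * A0 j) * y j := by ring
        _ ≤ (5832 * Q * (B * Q)) * y j := mul_le_mul_of_nonneg_right h3 (hy0 j).le
        _ = _ := by simp only [hy]; ring)
    (by positivity) (by positivity)
    (geom_le (by positivity) sqrt89 J) (geom_two hx0.le hx1 J)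
  -- the decomposition
  have hint : ∀ j < J, ∀ w ∈ W j, ∀ z ∈ sS (jk j) w,
      Integrable (fun ω => YY T x φ j z ω) P :=
    fun j hj w hw z hz => loc_integrable (hXl j hj w hw z hz)
  have hdec : ∀ ω, ∑ ℓ ∈ smf T x ω, φ ℓ = ∑ j ∈ Finset.range J, ∑ w ∈ W j,
      ∑ z ∈ sS (jk j) w, YY T x φ j z ω := by
    intro ω
    rw [decompS hJ (Ig := fun j => (W j).biUnion (sS (jk j))) (fun j hj ω ℓ hℓ hcl => by
      have h1 := scale_of hJ hℓ
      rw [hcl] at h1
      obtain ⟨-, ⟨v, hv, hvT⟩, -⟩ := mem_smf.1 hℓ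
      have h2 := box_of_small h1.2.1 hv
      have hz : zz ⌈x / 2 ^ j⌉ ℓ ∈ sS (jk j)
          ((zz ⌈x / 2 ^ j⌉ ℓ).1 / sN (jk j), (zz ⌈x / 2 ^ j⌉ ℓ).2 / sN (jk j)) := mem_sS.2 rfl
      refine Finset.mem_biUnion.2 ⟨_, ?_, hz⟩
      exact mem_Wc (lt_of_lt_of_le one_pos (hL1 j hj)) hz hvT h2) φ ω]
    refine Finset.sum_congr rfl fun j _ => ?_
    rw [Finset.sum_biUnion]
    intro w _ w' _ hne
    exact sS_disj hne
  have heq : (fun ω => t * (∑ ℓ ∈ smf T x ω, φ ℓ -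
      ∫ ω', ∑ ℓ ∈ smf T x ω', φ ℓ ∂P)) =
      fun ω => t * ∑ j ∈ Finset.range J, ∑ w ∈ W j, ∑ z ∈ sS (jk j) w,
        (YY T x φ j z ω - ∫ x', YY T x φ j z x' ∂P) :=
    funext fun ω => congrArg (t * ·)
      (sum_center (S := fun j w => sS (jk j) w) hint hdec ω)
  rw [heq]
  refine hmain.trans (ENNReal.ofReal_le_ofReal (Real.exp_le_exp.2 ?_))
  have hfin := fin_ar (t := t) hx hal hκ hκ10 hk2' hKb0.le hΓ0 hΓ'0 hGc0 hQ' hB
  rw [← hGc]
  push_cast
  exact hfin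

end Vale.Agent.P167.N.H662.L
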