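import Vale.Agent.P167.N.Kit
import Vale.Agent.P167.N.H542.Q.Wt
import Vale.Agent.P167.H662.L.Lay1

/-! generated from Vale.Agent.P167.H662.L.Lay1 (q < 1 port) -/

set_option autoImplicit false

namespace Vale.Agent.P167.N.H662.L

open Vale.Agent.P167.H662.L Vale.Agent.P167.H662

open Finset Filter Topology MeasureTheory

open Vale.Agent.P167 Vale.Agent.P167.BR

open Vale.Agent.P167.H542 (Geo Nr)

open Vale.Agent.P167.H542.Q (Phs mak mak_loc)

open Vale.Agent.P167.H562 (Em)

open Vale.Agent.P167.H562.GL (Nu loc_integrable)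

open Vale.Agent.P167.H562.SML (smf smf_loc')

open Vale.Agent.P167.H167 (Fd fd_pcs)

open Vale.Agent.P167.H638.L (bigV fd_bigV bigV_nonneg)

open Vale.Agent.P167.N.H542.Q (thr thr_pos)

/-- The lower bound `1 / 2` of the weights of the small loops. -/
theorem half_le_wR {m t : ℝ} (h0 : 0 ≤ m) (h1 : Ang m) (ht : |t| ≤ thr m) :
    Real.cos m / 2 ≤ Real.cos (m + t) := by
  have hc := H542.Q.cos_pos_of h0 h1
  have h2 := H542.Q.tan_nonneg h0 h1
  have h3 := H542.Q.tan_thr h0 h1
  have h4 := H542.Q.thr_pos h0 h1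
  have h5 := H542.Q.thr_le h0 h1
  have e : Real.cos (m + t) = Real.cos m * (Real.cos t - Real.tan m * Real.sin t) := by
    rw [Real.cos_add, Real.tan_eq_sin_div_cos]
    field_simp
  have h6 : 1 - t ^ 2 / 2 ≤ Real.cos t := Real.one_sub_sq_div_two_le_cos
  have h7 : |Real.sin t| ≤ |t| := Real.abs_sin_le_abs
  have h8 : Real.tan m * Real.sin t ≤ Real.tan m * thr m :=
    mul_le_mul_of_nonneg_left ((le_abs_self _).trans (h7.trans ht)) h2
  have h9 : t ^ 2 ≤ 1 / 10 := by
    rw [← sq_abs t]
    nlinarith [abs_nonneg t]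
  have h10 : 1 / 2 ≤ Real.cos t - Real.tan m * Real.sin t := by nlinarith
  rw [e]
  nlinarith

theorem cos_low {m t : ℝ} (h0 : 0 ≤ m) (h1 : Ang m) (ht : |t| ≤ thr m) :
    Real.cos m / 2 ≤ Real.cos (m + t) ∧ 0 < Real.cos m :=
  ⟨half_le_wR h0 h1 ht, H542.Q.cos_pos_of h0 h1⟩

/-- The constant of the linearisation of the logarithm of the weight. -/
noncomputable def kL (m : ℝ) : ℝ := 2 / Real.cos m ^ 2

theorem kL_pos {m : ℝ} (h0 : 0 ≤ m) (h1 : Ang m) : 0 < kL m := by
  have := H542.Q.cos_pos_of h0 h1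
  unfold kL
  positivity

theorem wR_pos {m t : ℝ} (h0 : 0 ≤ m) (h1 : Ang m) (ht : |t| ≤ thr m) : 0 < wR m t := by
  obtain ⟨a, b⟩ := cos_low h0 h1 ht
  unfold wR
  exact div_pos (by linarith) (by linarith)

theorem hasDerivAt_lwm {m t : ℝ} (h0 : 0 ≤ m) (h1 : Ang m) (ht : |t| ≤ thr m) :
    HasDerivAt (lwm m) (-(Real.sin (m + t) / Real.cos (m + t))) t := by
  obtain ⟨a, b⟩ := cos_low h0 h1 ht
  have h2 : HasDerivAt (fun t : ℝ => Real.cos (m + t) / Real.cos m)
      (-Real.sin (m + t) / Real.cos m) t := by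
    have h2 : HasDerivAt (fun t : ℝ => m + t) 1 t := (hasDerivAt_id t).const_add _
    have h3 := (Real.hasDerivAt_cos (m + t)).comp t h2
    rw [mul_one] at h3
    exact h3.div_const _
  have h3 := h2.log (by
    have : 0 < Real.cos (m + t) := by linarith
    have : 0 < Real.cos m := by linarith
    positivity)
  have h4 : HasDerivAt (lwm m) (-Real.sin (m + t) / Real.cos m /
      (Real.cos (m + t) / Real.cos m)) t := h3
  convert h4 using 1
  have : Real.cos (m + t) ≠ 0 := by linarith
  have : Real.cos m ≠ 0 := by linarith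
  field_simp

theorem tan_bd {m x : ℝ} (h0 : 0 ≤ m) (h1 : Ang m) (hx : |x| ≤ thr m) :
    |-(Real.sin (m + x) / Real.cos (m + x))| ≤ kL m ∧
    |Real.tan m + -(Real.sin (m + x) / Real.cos (m + x))| ≤ kL m * |x| := by
  obtain ⟨a, hm⟩ := cos_low h0 h1 hx
  have hc : (0 : ℝ) < Real.cos (m + x) := by linarith
  have hm1 : Real.cos m ≤ 1 := Real.cos_le_one _
  have hk : kL m * Real.cos m ^ 2 = 2 := by unfold kL; field_simp
  have hk0 := kL_pos h0 h1
  have hk1 : kL m * Real.cos m ^ 2 ≤ kL m * Real.cos m := by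
    refine mul_le_mul_of_nonneg_left ?_ hk0.le
    nlinarith
  constructor
  · rw [abs_neg, abs_div, abs_of_pos hc, div_le_iff₀ hc]
    have h2 := Real.abs_sin_le_one (m + x)
    have h3 := mul_le_mul_of_nonneg_left a hk0.le
    linarith
  · have e : Real.tan m + -(Real.sin (m + x) / Real.cos (m + x)) =
        -Real.sin x / (Real.cos m * Real.cos (m + x)) := by
      rw [Real.tan_eq_sin_div_cos, eq_div_iff (by positivity)]
      have e2 : Real.sin x = Real.sin ((m + x) - m) := by congr 1; ring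
      rw [e2, Real.sin_sub]
      field_simp
      ring
    rw [e, abs_div, abs_neg, abs_of_pos (by positivity : 0 < Real.cos m * Real.cos (m + x)),
      div_le_iff₀ (by positivity)]
    have h2 : |Real.sin x| ≤ |x| := Real.abs_sin_le_abs
    have h3 : Real.cos m ^ 2 / 2 ≤ Real.cos m * Real.cos (m + x) := by nlinarith
    have h4 : 1 ≤ kL m * (Real.cos m * Real.cos (m + x)) := by
      have := mul_le_mul_of_nonneg_left h3 hk0.le
      linarith
    calc |Real.sin x| ≤ 1 * |x| := by linarith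
      _ ≤ (kL m * (Real.cos m * Real.cos (m + x))) * |x| :=
          mul_le_mul_of_nonneg_right h4 (abs_nonneg _)
      _ = _ := by ring

theorem lwm_bounds {m t s : ℝ} (h0 : 0 ≤ m) (h1 : Ang m) (h : |t| + |s| ≤ thr m) :
    |lwm m (t + s) - lwm m t| ≤ kL m * |s| ∧
      |lwm m (t + s) - lwm m t + Real.tan m * s| ≤ kL m * (|t| + |s|) * |s| := by
  set r := |t| + |s| with hr
  have hin : ∀ x ∈ Set.Icc (-r) r, |x| ≤ thr m := fun x hx => (abs_le.2 hx).trans h
  have ht : t ∈ Set.Icc (-r) r := by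
    rw [Set.mem_Icc, ← abs_le]; linarith [abs_nonneg s]
  have hts : t + s ∈ Set.Icc (-r) r := by
    rw [Set.mem_Icc, ← abs_le]; exact abs_add_le t s
  constructor
  · have h1 := Convex.norm_image_sub_le_of_norm_hasDerivWithin_le (f := lwm m)
      (f' := fun x => -(Real.sin (m + x) / Real.cos (m + x))) (C := kL m)
      (fun x hx => (hasDerivAt_lwm h0 h1 (hin x hx)).hasDerivWithinAt)
      (fun x hx => (tan_bd h0 h1 (hin x hx)).1) (convex_Icc (-r) r) ht hts
    simpa only [Real.norm_eq_abs, add_sub_cancel_left] using h1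
  · have h1 := Convex.norm_image_sub_le_of_norm_hasDerivWithin_le
      (f := fun x => lwm m x + Real.tan m * x)
      (f' := fun x => -(Real.sin (m + x) / Real.cos (m + x)) + Real.tan m) (C := kL m * r)
      (fun x hx => by
        have h2 := (hasDerivAt_lwm h0 h1 (hin x hx)).add
          ((hasDerivAt_id x).const_mul (Real.tan m))
        rw [mul_one] at h2
        exact h2.hasDerivWithinAt)
      (fun x hx => by
        rw [Real.norm_eq_abs, add_comm]
        refine (tan_bd h0 h1 (hin x hx)).2.trans ?_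
        exact mul_le_mul_of_nonneg_left (abs_le.2 hx) (kL_pos h0 h1).le)
      (convex_Icc (-r) r) ht hts
    simp only [Real.norm_eq_abs, add_sub_cancel_left] at h1
    have h2 : lwm m (t + s) + Real.tan m * (t + s) - (lwm m t + Real.tan m * t) =
        lwm m (t + s) - lwm m t + Real.tan m * s := by ring
    rwa [h2] at h1

end Vale.Agent.P167.N.H662.L
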