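import Vale.Agent.P167.N.Kit
import Vale.Agent.P167.N.H662.L.Lay1
import Vale.Agent.P167.H662.L.Lay2

/-! generated from Vale.Agent.P167.H662.L.Lay2 (q < 1 port) -/

set_option autoImplicit false

namespace Vale.Agent.P167.N.H662.L

open Vale.Agent.P167.H662.L Vale.Agent.P167.H662

open Finset Filter Topology MeasureTheory

open Vale.Agent.P167 Vale.Agent.P167.BR

open Vale.Agent.P167.H542 (Geo Nr near_of_ins)

open Vale.Agent.P167.H562 (Em)

open Vale.Agent.P167.H562.GL (Nu loc_integrable Em_const_add)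

open Vale.Agent.P167.H562.SML (smf smf_loc' mem_smf)

open Vale.Agent.P167.H167 (Fd fd_pcs)

open Vale.Agent.P167.H45 (vs_nonempty)

open Vale.Agent.P167.H638.L (Cnt CelB cel)

open Vale.Agent.P167.N.H542.Q (thr)

variable {T : Finset (ℤ × ℤ)} {ω : Cfg} {ℓ : Finset Ed} {g η : ℤ × ℤ → ℝ}

/-- Smallness of the masses. -/
theorem G_smd {B Q n h κ δ : ℝ} (hB : 0 < B) (hQ : 0 < Q) (hn : 0 < n) (hh : 0 < h) (hκ : 0 < κ)
    (hκ1 : κ ≤ 1) (hsm : (2 * Q + 36) * B * κ ≤ δ)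
    (hc : Cnt T Q h) (hT : ∀ z, η z ≠ 0 → z ∈ T) (hη : ∀ z, |η z| ≤ B / (h * n))
    (hg : ∀ z, |g z| ≤ B / n ^ 2) {r : ℤ} (hl : IsLoop ω ℓ) (hr : 1 ≤ r)
    (hrn : (r : ℝ) ≤ 2 * (κ * n)) (hs : Small (r : ℝ) ℓ) : |G g ℓ| + |G η ℓ| ≤ δ := by
  obtain ⟨h1, h2⟩ := G_bds hB hQ hn hh hc hT hη hg hl hr hs
  have hr0 : (0 : ℝ) < r := by exact_mod_cast (by omega : 0 < r)
  have h3 : B * Q * (r * min (r : ℝ) h) / (h * n) ≤ 2 * (B * Q) * κ := by
    rw [div_le_iff₀ (by positivity)]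
    have h4 : min (r : ℝ) h ≤ h := min_le_right _ _
    calc B * Q * (r * min (r : ℝ) h) ≤ B * Q * (2 * (κ * n) * h) := by
          refine mul_le_mul_of_nonneg_left ?_ (by positivity)
          exact mul_le_mul hrn h4 (le_min hr0.le hh.le) (by positivity)
      _ = _ := by ring
  have h5 : 9 * B * (r : ℝ) ^ 2 / n ^ 2 ≤ 36 * B * κ := by
    rw [div_le_iff₀ (by positivity)]
    have h6 : (r : ℝ) ^ 2 ≤ (2 * (κ * n)) ^ 2 := pow_le_pow_left₀ hr0.le hrn 2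
    calc 9 * B * (r : ℝ) ^ 2 ≤ 9 * B * (2 * (κ * n)) ^ 2 :=
          mul_le_mul_of_nonneg_left h6 (by positivity)
      _ = 36 * B * κ * n ^ 2 * κ := by ring
      _ ≤ 36 * B * κ * n ^ 2 * 1 := mul_le_mul_of_nonneg_left hκ1 (by positivity)
      _ = _ := mul_one _
  nlinarith

/-- **Exponential moments of the logarithm of the ratio, conditioned measures.** -/
theorem sp_q {P : Measure Cfg} [IsProbabilityMeasure P] (hem : S_em P) (habs : S_abs P)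
    (hmean : S_mean P) {B Q m : ℝ} (hB : 0 < B) (hQ : 0 < Q) (hm0 : 0 ≤ m) (hm1 : Ang m) :
    ∃ c C α : ℝ, 0 < c ∧ 0 ≤ C ∧ 0 < α ∧ ∀ (κ κ₁ n h t : ℝ) (T U S : Finset (ℤ × ℤ))
      (ν : Measure Cfg) (g η : ℤ × ℤ → ℝ), 0 < κ → κ ≤ κ₁ →
      16 * κ₁ ≤ 1 → (2 * Q + 36) * B * κ₁ ≤ thr m → 1 ≤ κ * n → 0 < h → Cnt T Q h →
      CelB T Q n h → (∀ u ∈ T, ∀ v, (nm (v - u) : ℝ) ≤ 64 * κ₁ * n → v ∈ U) → Nu P ν U →
      (∀ z, η z ≠ 0 → z ∈ T) → (∀ z, |η z| ≤ B / (h * n)) → (∀ z, |g z| ≤ B / n ^ 2) →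
      (∀ z ∉ S, η z = 0) → ∑ z ∈ S, η z = 0 →
      (∀ (ω : Cfg) (ℓ : Finset Ed), IsLoop ω ℓ → Small (κ * n) ℓ → G η ℓ ≠ 0 →
        ∃ v ∈ vs ℓ, v ∈ T) → κ₁ * |t| ≤ c →
      Em ν (fun ω => t * SfQ m T g η (κ * n) ω) ≤
        ENNReal.ofReal (Real.exp (C * (((κ / κ₁) ^ α + κ) * |t| + κ₁ * t ^ 2))) := by
  classical
  obtain ⟨c0, C0, α, hc0, hC0, hα, hE⟩ := hem
  obtain ⟨Ca, hCa, hA⟩ := habs
  set k : ℝ := kL m with hk
  have hk0 : 0 < k := kL_pos hm0 hm1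
  set β0 : ℝ := k * (3 * (4 * B * Q) * (4 * B * Q + 36 * B) * Q) with hβ0
  have hβ00 : 0 < β0 := by positivity
  refine ⟨c0 / (k * B * Q), Ca * β0 + C0 * Q * (k * B * Q) * (1 + k * B * Q), α, by positivity,
    by positivity, hα, fun κ κ₁ n h t T U S ν g η hκ hκκ hκ1 hsm hκn hh hcnt hcel hU hν
    hηT hη hg hS htot hvis ht => ?_⟩
  have hνp : IsProbabilityMeasure ν := hν.prob
  have hκ10 : 0 < κ₁ := lt_of_lt_of_le hκ hκκ
  have hn0 : 0 < n := by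
    by_contra hcon
    have : κ * n ≤ 0 := mul_nonpos_of_nonneg_of_nonpos hκ.le (not_lt.1 hcon)
    linarith
  have hκle1 : κ ≤ 1 := by linarith
  have hsmκ : (2 * Q + 36) * B * κ ≤ thr m :=
    (mul_le_mul_of_nonneg_left hκκ (by positivity)).trans hsm
  set φ : Finset Ed → ℝ := fun ℓ => lwm m (G g ℓ + G η ℓ) - lwm m (G g ℓ) with hφ
  set ψ : Finset Ed → ℝ := fun ℓ => φ ℓ + Real.tan m * G η ℓ with hψ
  have hsmall : ∀ (ω : Cfg) (ℓ : Finset Ed) (r : ℤ), IsLoop ω ℓ → 1 ≤ r →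
      (r : ℝ) ≤ 2 * (κ * n) → Small (r : ℝ) ℓ → |G g ℓ| + |G η ℓ| ≤ thr m :=
    fun ω ℓ r hl hr hrn hs => G_smd hB hQ hn0 hh hκ hκle1 hsmκ hcnt hηT hη hg hl hr hrn hs
  have hMb : Mb T (k * B / (h * n)) (2 * (κ * n)) φ := by
    intro ω ℓ r hl hr hrn hs v hv
    have h1 := (lwm_bounds hm0 hm1 (hsmall ω ℓ r hl hr hrn hs)).1
    refine h1.trans ?_
    have h2 := G_cnt (by positivity) hl hs hηT hη hv
    calc k * |G η ℓ| ≤ k * (B / (h * n) * ((T.filter fun z => nm (z - v) ≤ r).card : ℝ)) :=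
          mul_le_mul_of_nonneg_left h2 hk0.le
      _ = _ := by ring
  have hem := hE κ κ₁ n h (k * B) Q t T U ν φ hκ hκκ hκ1 hκn hh (by positivity) hQ hcnt hcel hU hν
    hMb (by
      rw [le_div_iff₀ (by positivity)] at ht
      linarith)
  -- the mean
  have hdj : ∀ j : ℕ, κ * n / 2 ^ j ≤ κ * n := fun j =>
    div_le_self (by positivity) (one_le_pow₀ (by norm_num))
  have habsψ : ∫ ω, ∑ ℓ ∈ smf T (κ * n) ω, |ψ ℓ| ∂P ≤ Ca * (β0 * κ) := by
    refine hA T (κ * n) ψ (fun j => k * (4 * B * Q * (κ * n / 2 ^ j * min (κ * n / 2 ^ j) h) /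
      (h * n) * (4 * B * Q * (κ * n / 2 ^ j * min (κ * n / 2 ^ j) h) / (h * n) +
        36 * B * (κ * n / 2 ^ j) ^ 2 / n ^ 2))) (β0 * κ) hκn (by positivity) (fun j => ?_)
      (fun j ω hj ℓ hl _ hs => ?_) (fun j hj => ?_)
    · have : 0 ≤ min (κ * n / 2 ^ j) h := le_min (by positivity) hh.le
      positivity
    · set d := κ * n / 2 ^ j with hd
      have hd0 : 0 < d := by linarith
      set r : ℤ := ⌈d⌉ with hr
      have hr1 : 1 ≤ r := Int.one_le_ceil_iff.2 (by linarith)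
      have hdr : d ≤ r := Int.le_ceil d
      have hr2 : (r : ℝ) ≤ 2 * d := by
        have := Int.ceil_lt_add_one d
        rw [← hr] at this
        linarith
      have hs' : Small (r : ℝ) ℓ := H45.Small.mono hdr hs
      have hr0 : (0 : ℝ) < r := by linarith
      obtain ⟨b1, b2⟩ := G_bds hB hQ hn0 hh hcnt hηT hη hg hl hr1 hs'
      have h4 := hsmall ω ℓ r hl hr1 (hr2.trans (by linarith [hdj j])) hs'
      have h5 := (lwm_bounds hm0 hm1 h4).2
      have hmin : min (r : ℝ) h ≤ 2 * min d h := by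
        rcases le_total d h with h6 | h6
        · rw [min_eq_left h6]; exact (min_le_left _ _).trans hr2
        · rw [min_eq_right h6]; exact (min_le_right _ _).trans (by linarith)
      have hmin0 : 0 ≤ min (r : ℝ) h := le_min hr0.le hh.le
      have hmin1 : 0 ≤ min d h := le_min hd0.le hh.le
      have c1 : |G η ℓ| ≤ 4 * B * Q * (d * min d h) / (h * n) := by
        refine b1.trans (div_le_div_of_nonneg_right ?_ (by positivity))
        calc B * Q * (r * min (r : ℝ) h) ≤ B * Q * (2 * d * (2 * min d h)) := by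
              refine mul_le_mul_of_nonneg_left ?_ (by positivity)
              exact mul_le_mul hr2 hmin hmin0 (by positivity)
          _ = _ := by ring
      have c2 : |G g ℓ| ≤ 36 * B * d ^ 2 / n ^ 2 := by
        refine b2.trans (div_le_div_of_nonneg_right ?_ (by positivity))
        calc 9 * B * (r : ℝ) ^ 2 ≤ 9 * B * (2 * d) ^ 2 :=
              mul_le_mul_of_nonneg_left (pow_le_pow_left₀ hr0.le hr2 2) (by positivity)
          _ = _ := by ring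
      calc |ψ ℓ| ≤ k * (|G g ℓ| + |G η ℓ|) * |G η ℓ| := h5
        _ ≤ k * (36 * B * d ^ 2 / n ^ 2 + 4 * B * Q * (d * min d h) / (h * n)) *
            (4 * B * Q * (d * min d h) / (h * n)) := by
            refine mul_le_mul ?_ c1 (abs_nonneg _) (by positivity)
            exact mul_le_mul_of_nonneg_left (add_le_add c2 c1) hk0.le
        _ = _ := by ring
    · set d := κ * n / 2 ^ j with hd
      have hd0 : 0 < d := by linarith
      have hr1 : 1 ≤ ⌈d⌉ := Int.one_le_ceil_iff.2 (by linarith)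
      have hdr : d ≤ ⌈d⌉ := Int.le_ceil d
      have hr2 : (⌈d⌉ : ℝ) ≤ 2 * d := by
        have := Int.ceil_lt_add_one d
        linarith
      have hrn : (⌈d⌉ : ℝ) ≤ n := by
        have h1 := hdj j
        nlinarith
      have hN : ((cel T ⌈d⌉).card : ℝ) * d ^ 2 ≤ Q * n * (h + 2 * d) := by
        calc ((cel T ⌈d⌉).card : ℝ) * d ^ 2 ≤ ((cel T ⌈d⌉).card : ℝ) * (⌈d⌉ : ℝ) ^ 2 :=
              mul_le_mul_of_nonneg_left (pow_le_pow_left₀ hd0.le hdr 2) (by positivity)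
          _ ≤ Q * n * (h + ⌈d⌉) := hcel ⌈d⌉ hr1 hrn
          _ ≤ _ := mul_le_mul_of_nonneg_left (by linarith) (by positivity)
      have hdn : d / n = κ * (1 / 2) ^ j := by
        rw [hd, one_div, inv_pow]; field_simp
      have hκj : κ * (1 / 2) ^ j ≤ 1 := by
        have h1 : ((1 : ℝ) / 2) ^ j ≤ 1 := pow_le_one₀ (by norm_num) (by norm_num)
        have h2 : (0 : ℝ) < (1 / 2) ^ j := by positivity
        nlinarith
      have h1 := H638.L.ar (C1 := 4 * B * Q) (C2 := 36 * B) (by positivity) (by positivity) hQ.le hj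
        hh hn0 hdn hκj hN
      calc k * (4 * B * Q * (d * min d h) / (h * n) * (4 * B * Q * (d * min d h) / (h * n) +
            36 * B * d ^ 2 / n ^ 2)) * ((cel T ⌈d⌉).card : ℝ)
          = k * (4 * B * Q * (d * min d h) / (h * n) * (4 * B * Q * (d * min d h) / (h * n) +
            36 * B * d ^ 2 / n ^ 2) * ((cel T ⌈d⌉).card : ℝ)) := by ring
        _ ≤ k * (3 * (4 * B * Q) * (4 * B * Q + 36 * B) * Q * (κ * (1 / 2) ^ j)) :=
            mul_le_mul_of_nonneg_left h1 hk0.le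
        _ = _ := by rw [hβ0]; ring
  have fdf : ∀ F : Finset Ed → ℝ, Fd (fun ω => ∑ ℓ ∈ smf T (κ * n) ω, F ℓ) := fun F =>
    ⟨H562.SML.fat T (κ * n), fun ω ω' hw => by
      simp only
      rw [smf_loc' T (κ * n) fun v hv => hw v (Finset.mem_coe.2 hv)]⟩
  set I : ℝ := ∫ ω', ∑ ℓ ∈ smf T (κ * n) ω', φ ℓ ∂P with hI
  have hIle : |I| ≤ Ca * (β0 * κ) := by
    have h0 := hmean T S η (κ * n) hS htot hvis
    have e1 : I = ∫ ω', ∑ ℓ ∈ smf T (κ * n) ω', ψ ℓ ∂P := by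
      have e2 : ∫ ω', ∑ ℓ ∈ smf T (κ * n) ω', ψ ℓ ∂P =
          ∫ ω', (∑ ℓ ∈ smf T (κ * n) ω', φ ℓ) ∂P +
            ∫ ω', Real.tan m * ∑ ℓ ∈ smf T (κ * n) ω', G η ℓ ∂P := by
        rw [← integral_add (Fd.intN (fdf φ)) ((Fd.intN (fdf (G η))).const_mul _)]
        refine integral_congr_ae (Filter.Eventually.of_forall fun ω => ?_)
        simp only [hψ]
        rw [Finset.mul_sum, ← Finset.sum_add_distrib]
      rw [e2, integral_const_mul, h0, mul_zero, add_zero]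
    rw [e1]
    calc |∫ ω', ∑ ℓ ∈ smf T (κ * n) ω', ψ ℓ ∂P|
        ≤ ∫ ω', |∑ ℓ ∈ smf T (κ * n) ω', ψ ℓ| ∂P := abs_integral_le_integral_abs
      _ ≤ ∫ ω', ∑ ℓ ∈ smf T (κ * n) ω', |ψ ℓ| ∂P :=
          integral_mono (Fd.intN (fdf ψ)).abs (Fd.intN (fdf fun ℓ => |ψ ℓ|))
            fun ω => Finset.abs_sum_le_sum_abs _ _
      _ ≤ _ := habsψ
  have hpt : ∀ ω, t * SfQ m T g η (κ * n) ω ≤ |t| * (Ca * (β0 * κ)) +
      t * (∑ ℓ ∈ smf T (κ * n) ω, φ ℓ - I) := by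
    intro ω
    have e : SfQ m T g η (κ * n) ω = ∑ ℓ ∈ smf T (κ * n) ω, φ ℓ := rfl
    rw [e]
    have h1 : t * I ≤ |t| * (Ca * (β0 * κ)) := by
      calc t * I ≤ |t * I| := le_abs_self _
        _ = |t| * |I| := abs_mul _ _
        _ ≤ _ := mul_le_mul_of_nonneg_left hIle (abs_nonneg _)
    linarith
  refine (Em_const_add hpt hem).trans ?_
  rw [← ENNReal.ofReal_mul (Real.exp_pos _).le, ← Real.exp_add]
  refine ENNReal.ofReal_le_ofReal (Real.exp_le_exp.2 ?_)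
  have hr0 : 0 ≤ (κ / κ₁) ^ α := by positivity
  have p1 : 0 ≤ (κ / κ₁) ^ α * |t| := by positivity
  have p2 : 0 ≤ κ * |t| := by positivity
  have p3 : 0 ≤ κ₁ * t ^ 2 := by positivity
  have k1 : 0 ≤ Ca * β0 := by positivity
  have k2 : 0 ≤ C0 * Q * (k * B * Q) := by positivity
  have k3 : 0 ≤ C0 * Q * (k * B * Q) * (k * B * Q) := by positivity
  have e1 : |t| * (Ca * (β0 * κ)) + C0 * Q * (k * B * Q) * ((κ / κ₁) ^ α * |t| +
      k * B * Q * κ₁ * t ^ 2) = Ca * β0 * (κ * |t|) + C0 * Q * (k * B * Q) * ((κ / κ₁) ^ α * |t|) +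
      C0 * Q * (k * B * Q) * (k * B * Q) * (κ₁ * t ^ 2) := by ring
  have e2 : (Ca * β0 + C0 * Q * (k * B * Q) * (1 + k * B * Q)) *
      (((κ / κ₁) ^ α + κ) * |t| + κ₁ * t ^ 2) = (Ca * β0 + C0 * Q * (k * B * Q) +
      C0 * Q * (k * B * Q) * (k * B * Q)) * ((κ / κ₁) ^ α * |t| + κ * |t| + κ₁ * t ^ 2) := by ring
  rw [e1, e2]
  nlinarith [mul_nonneg k1 p1, mul_nonneg k1 p3, mul_nonneg k2 p2, mul_nonneg k2 p3,
    mul_nonneg k3 p1, mul_nonneg k3 p2]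

end Vale.Agent.P167.N.H662.L
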