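import Vale.Agent.P167.N.Kit
import Vale.Agent.P167.N.H662.L.Lay2
import Vale.Agent.P167.H662.L.Lay4

/-! generated from Vale.Agent.P167.H662.L.Lay4 (q < 1 port) -/

set_option autoImplicit false

namespace Vale.Agent.P167.N.H662.L

open Vale.Agent.P167.H662.L Vale.Agent.P167.H662

open Finset Filter Topology MeasureTheory

open Vale.Agent.P167 Vale.Agent.P167.BR

open Vale.Agent.P167.H542 (Geo Nr)

open Vale.Agent.P167.H542.Q (Phs mak)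

open Vale.Agent.P167.H562 (Em)

open Vale.Agent.P167.H562.GL (Nu)

open Vale.Agent.P167.H638.L (Cnt CelB cel dvf bigV tot_dvf fd_bigV bigV_nonneg)

open Vale.Agent.P167.H167 (Fd)

open Vale.Agent.P167.N.H542.Q (thr)

variable {D T : Finset (ℤ × ℤ)} {p : ℤ × ℤ} {K : Set (ℤ × ℤ)} {ω : Cfg} {ℓ : Finset Ed}
  {g : ℤ × ℤ → ℝ} {c : Ed → ℝ} {P : Measure Cfg} {c0 R B Q w n : ℝ}

theorem sm_d (hL : LayQ c0 R B Q w n D T p K g c) (hB : 0 < B) (hQ : 0 < Q) (hn : 0 < n)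
    (hw : 0 < w) {κ δ : ℝ} (hκ : 0 < κ) (hκ1 : κ ≤ 1) (hsm : (2 * Q + 36) * B * κ ≤ δ)
    (hκn : 1 ≤ κ * n) (hl : IsLoop ω ℓ) (hs : Small (κ * n) ℓ) :
    |G g ℓ| + |G (dvf c) ℓ| ≤ δ := by
  have h1 : 1 ≤ ⌈κ * n⌉ := Int.one_le_ceil_iff.2 (by linarith)
  have h2 : (⌈κ * n⌉ : ℝ) ≤ 2 * (κ * n) := by
    have := Int.ceil_lt_add_one (κ * n)
    linarith
  exact G_smd hB hQ hn (by positivity : 0 < w * n) hκ hκ1 hsm hL.cnt hL.ηT hL.etale hL.gle hl h1 h2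
    (H45.Small.mono (Int.le_ceil _) hs)

/-- **Exponential moments, strip.** -/
theorem lay_em [IsProbabilityMeasure P] (hem : S_em P) (habs : S_abs P) (hmean : S_mean P)
    (hB : 0 < B) (hQ : 0 < Q) {m : ℝ} (hm0 : 0 ≤ m) (hm1 : Ang m) :
    ∃ c1 C1 α1 : ℝ, 0 < c1 ∧ 0 ≤ C1 ∧ 0 < α1 ∧ ∀ (c0 R w n κ κ₁ t : ℝ) (D T : Finset (ℤ × ℤ))
      (p : ℤ × ℤ) (K : Set (ℤ × ℤ)) (g : ℤ × ℤ → ℝ) (c : Ed → ℝ) (ν : Measure Cfg),
      LayQ c0 R B Q w n D T p K g c → Nu P ν D → 0 < w → 0 < κ →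
      κ ≤ κ₁ → 16 * κ₁ ≤ 1 → 128 * κ₁ ≤ c0 → (2 * Q + 36) * B * κ₁ ≤ thr m → 1 ≤ κ * n →
      κ₁ * |t| ≤ c1 → ∫ ω, Real.exp (t * SfQ m T g (dvf c) (κ * n) ω) ∂ν ≤
        Real.exp (C1 * (((κ / κ₁) ^ α1 + κ) * |t| + κ₁ * t ^ 2)) := by
  obtain ⟨c1, C1, α1, hc1, hC1, hα1, hE⟩ := sp_q hem habs hmean hB hQ hm0 hm1
  refine ⟨c1, C1, α1, hc1, hC1, hα1, fun c0 R w n κ κ₁ t D T p K g c ν hL hν hw hκ hκκ
    h16 h128 hsm hκn ht => ?_⟩
  have hνp : IsProbabilityMeasure ν := hν.prob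
  have hn : 0 < n := by
    by_contra hcon
    have : κ * n ≤ 0 := mul_nonpos_of_nonneg_of_nonpos hκ.le (not_lt.1 hcon)
    linarith
  have hc0n : 128 * (κ * n) ≤ c0 * n := by
    calc 128 * (κ * n) = (128 * κ) * n := by ring
      _ ≤ c0 * n := mul_le_mul_of_nonneg_right (by linarith) hn.le
  have h64 : 64 * κ₁ * n ≤ c0 * n := mul_le_mul_of_nonneg_right (by linarith) hn.le
  refine Em_intN (fd_SfQ _ _ _ _ _) (Real.exp_pos _).le ?_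
  refine hE κ κ₁ n (w * n) t T D (sites D) ν g (dvf c) hκ hκκ h16 hsm hκn (by positivity)
    hL.cnt hL.celb (fun u hu v hv => hL.deep u hu v (hv.trans h64)) hν hL.ηT hL.etale hL.gle ?_ ?_ ?_
    ht
  · intro z hz
    exact hL.ηK z fun hzK => hz (K_sites hL.geo (by linarith) hzK)
  · exact tot_dvf hL.cD
  · intro ω ℓ hl hs hne
    exact vis_strip hL.geo (by linarith) (by linarith) hL.ηK (hL.wid (by linarith)) hL.cD hL.cT hl hs
      hne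

/-- **Exponential moments, bulk.** -/
theorem lay_emg [IsProbabilityMeasure P] (hem : S_em P) (habs : S_abs P) (hmean : S_mean P)
    (hB : 0 < B) (hR : 0 ≤ R) {m : ℝ} (hm0 : 0 ≤ m) (hm1 : Ang m) :
    ∃ c2 C2 : ℝ, 0 < c2 ∧ 0 ≤ C2 ∧ ∀ (c0 Q w n κ t : ℝ) (D T : Finset (ℤ × ℤ))
      (p : ℤ × ℤ) (K : Set (ℤ × ℤ)) (g : ℤ × ℤ → ℝ) (c : Ed → ℝ) (ν : Measure Cfg),
      LayQ c0 R B Q w n D T p K g c → Nu P ν D → 0 < κ →
      16 * κ ≤ 1 → 128 * κ ≤ c0 → (2 * QR R + 36) * B * κ ≤ thr m → 1 ≤ κ * n →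
      κ * |t| ≤ c2 → ∫ ω, Real.exp (t * SfQ m (zoneK D K) (fun _ => 0) g (κ * n) ω) ∂ν ≤
        Real.exp (C2 * ((1 + κ) * |t| + κ * t ^ 2)) := by
  obtain ⟨c1, C1, α1, hc1, hC1, hα1, hE⟩ := sp_q hem habs hmean hB (QR_pos R) hm0 hm1
  refine ⟨c1, C1, hc1, hC1, fun c0 Q w n κ t D T p K g c ν hL hν hκ
    h16 h128 hsm hκn ht => ?_⟩
  have hνp : IsProbabilityMeasure ν := hν.prob
  have hn : 0 < n := by
    by_contra hcon
    have : κ * n ≤ 0 := mul_nonpos_of_nonneg_of_nonpos hκ.le (not_lt.1 hcon)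
    linarith
  have hn1 : 1 ≤ n := by
    have : κ * n ≤ 1 * n := mul_le_mul_of_nonneg_right (by linarith) hn.le
    linarith
  have hc0n : 128 * (κ * n) ≤ c0 * n := by
    calc 128 * (κ * n) = (128 * κ) * n := by ring
      _ ≤ c0 * n := mul_le_mul_of_nonneg_right (by linarith) hn.le
  obtain ⟨hcnt, hcel⟩ := cnt_bulk (T := zoneK D K) hR hn1 fun v hv => hL.box v (mem_zoneK.1 hv).1
  refine Em_intN (fd_SfQ _ _ _ _ _) (Real.exp_pos _).le ?_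
  have hmain := hE κ κ n n t (zoneK D K) D (sites D) ν (fun _ => 0) g hκ le_rfl h16 hsm hκn hn
    hcnt hcel ?_ hν ?_ ?_ ?_ ?_ hL.totg ?_ ht
  · refine hmain.trans (le_of_eq ?_)
    rw [div_self hκ.ne', Real.one_rpow]
  · intro u hu v hv
    obtain ⟨-, z, hz, hzu⟩ := mem_zoneK.1 hu
    refine hL.geo.nbhd z hz v ?_
    have h1 : nm (v - z) ≤ nm (v - u) + nm (u - z) := H45.nm_sub_le _ _ _
    have h2 : (nm (v - z) : ℝ) ≤ nm (v - u) + 1 := by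
      have : nm (v - z) ≤ nm (v - u) + 1 := by linarith
      exact_mod_cast this
    linarith
  · intro z hz
    refine K_zone hL.geo (by linarith) ?_
    by_contra hcon
    exact hz (hL.gK z hcon)
  · intro z
    exact (hL.gle z).trans (le_of_eq (by rw [sq]))
  · intro z
    rw [abs_zero]
    positivity
  · intro z hz
    exact hL.gK z fun hzK => hz (K_sites hL.geo (by linarith) hzK)
  · intro ω ℓ hl hs hne
    exact vis_bulk hL.geo (by linarith) hL.gK (hL.wid (by linarith)) hl hs hne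

end Vale.Agent.P167.N.H662.L
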