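import Vale.Agent.P167.N.Kit
import Vale.Agent.P167.N.H542.Q.Pc
import Vale.Agent.P167.N.H662.L.LDefs
import Vale.Agent.P167.N.H662.L.Lay4
import Vale.Agent.P167.H662.L.Lay5

/-! generated from Vale.Agent.P167.H662.L.Lay5 (q < 1 port) -/

set_option autoImplicit false

namespace Vale.Agent.P167.N.H662.L

open Vale.Agent.P167.H662.L Vale.Agent.P167.H662

open Finset Filter Topology MeasureTheory

open Vale.Agent.P167 Vale.Agent.P167.BR

open Vale.Agent.P167.H542 (Geo Nr)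

open Vale.Agent.P167.H542.Q (Phs mak)

open Vale.Agent.P167.H562 (Em)

open Vale.Agent.P167.H562.GL (Nu)

open Vale.Agent.P167.H638.L (Cnt CelB cel dvf bigV tot_dvf fd_bigV bigV_nonneg exists_small)

open Vale.Agent.P167.H167 (Fd)

open Vale.Agent.P167.N.H542.Q (thr)

variable {D T : Finset (ℤ × ℤ)} {p : ℤ × ℤ} {K : Set (ℤ × ℤ)} {ω : Cfg} {ℓ : Finset Ed}
  {g : ℤ × ℤ → ℝ} {c : Ed → ℝ} {P ν : Measure Cfg} {c0 R B Q w n : ℝ}

/-- The first moment at the larger scale. -/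
theorem lay_first [IsProbabilityMeasure ν] (hsub : S_sub) {m cc κ κ0 δ : ℝ}
    {th : Finset Ed → ℝ} (hL : LayQ c0 R B Q w n D T p K g c) (hth : Vale.Agent.P167.N.H542.Q.Phs m cc D th)
    (hB : 0 < B) (hQ : 0 < Q) (hw : 0 < w) (hn : 0 < n) (hκκ : κ ≤ κ0)
    (h16 : 16 * κ0 ≤ 1) (h128 : 128 * κ0 ≤ c0) (hsm : (2 * Q + 36) * B * κ0 ≤ thr m)
    (hκn : 1 ≤ κ0 * n) (t5 : ∫ ω, |SfQ m T g (dvf c) (κ * n) ω| ∂ν ≤ δ / 2)
    (t6 : 2 / Real.cos m * ∫ ω, bigV D p (dvf c) (κ * n) ω ∂ν ≤ δ / 2) :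
    ∫ ω, |SfQ m T g (dvf c) (κ0 * n) ω| ∂ν ≤ δ := by
  have hκ0 : 0 < κ0 := by
    by_contra hcon
    have : κ0 * n ≤ 0 := mul_nonpos_of_nonpos_of_nonneg (not_lt.1 hcon) hn.le
    linarith
  have hc0n : 128 * (κ0 * n) ≤ c0 * n := by
    calc 128 * (κ0 * n) = (128 * κ0) * n := by ring
      _ ≤ c0 * n := mul_le_mul_of_nonneg_right h128 hn.le
  have f1 : Fd (fun ω => |SfQ m T g (dvf c) (κ * n) ω|) := (fd_SfQ m T g (dvf c) (κ * n)).abs
  have f2 := fd_bigV D p (dvf c) (κ * n)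
  calc ∫ ω, |SfQ m T g (dvf c) (κ0 * n) ω| ∂ν
      ≤ ∫ ω, (|SfQ m T g (dvf c) (κ * n) ω| + 2 / Real.cos m * bigV D p (dvf c) (κ * n) ω) ∂ν := by
        refine integral_mono (Fd.intN (fd_SfQ m T g (dvf c) (κ0 * n)).abs)
          ((Fd.intN f1).add ((Fd.intN f2).const_mul (2 / Real.cos m))) fun ω => ?_
        simp only
        have h1 := hsub m D T p K (c0 * n) (κ0 * n) (κ * n) g (dvf c) ω hth.m0 hth.m1 hL.geo
          (by linarith) (by linarith) (mul_le_mul_of_nonneg_right hκκ hn.le) hL.ηK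
          (tot_dvf hL.cD) (hL.wid (by linarith))
          (fun ℓ hl hs => sm_d hL hB hQ hn hw hκ0 (by linarith) hsm hκn hl hs)
        have h2 := abs_sub_abs_le_abs_sub (SfQ m T g (dvf c) (κ0 * n) ω)
          (SfQ m T g (dvf c) (κ * n) ω)
        linarith
    _ = ∫ ω, |SfQ m T g (dvf c) (κ * n) ω| ∂ν + 2 / Real.cos m * ∫ ω, bigV D p (dvf c) (κ * n) ω ∂ν := by
        rw [integral_add (Fd.intN f1) ((Fd.intN f2).const_mul (2 / Real.cos m)), integral_const_mul]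
    _ ≤ δ := by linarith

/-- The comparison, given the moments. -/
theorem lay_core [IsProbabilityMeasure ν] (hpt : S_pt) {m cc κ0 δ A1 C4 e1 M : ℝ}
    {th : Finset Ed → ℝ} (hL : LayQ c0 R B Q w n D T p K g c) (hth : Vale.Agent.P167.N.H542.Q.Phs m cc D th)
    (hB : 0 < B) (hQ : 0 < Q) (hw : 0 < w) (hn : 0 < n)
    (h16 : 16 * κ0 ≤ 1) (h128 : 128 * κ0 ≤ c0) (hsm : (2 * Q + 36) * B * κ0 ≤ thr m)
    (hκn : 1 ≤ κ0 * n) (hM : cc⁻¹ ≤ M) (hδ : 0 ≤ δ) (hA1 : 0 ≤ A1) (hC4 : 0 ≤ C4) (he1 : 0 ≤ e1)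
    (t1 : ∫ ω, Real.exp (4 * SfQ m (zoneK D K) (fun _ => 0) g (κ0 * n) ω) ∂ν ≤ A1)
    (t2 : ∫ ω, (M ^ 4) ^ (mak K (κ0 * n) D ω).card ∂ν ≤ C4)
    (t3 : ∫ ω, Real.exp (10 * SfQ m T g (dvf c) (κ0 * n) ω) ∂ν ≤ e1)
    (t4 : ∫ ω, Real.exp (-10 * SfQ m T g (dvf c) (κ0 * n) ω) ∂ν ≤ e1)
    (t8 : ∫ ω, |SfQ m T g (dvf c) (κ0 * n) ω| ∂ν ≤ δ)
    (t7 : ∫ ω, bigV D p (dvf c) (κ0 * n) ω ∂ν ≤ δ) :
    ∫ ω, |XR th D p (fun z => g z + dvf c z) ω - XR th D p g ω| ∂ν ≤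
      √(√A1 * √C4) * √(2 * √(√δ * √(10080 * e1)) + 8 * δ) := by
  have hκ0 : 0 < κ0 := by
    by_contra hcon
    have : κ0 * n ≤ 0 := mul_nonpos_of_nonpos_of_nonneg (not_lt.1 hcon) hn.le
    linarith
  have hc0n : 128 * (κ0 * n) ≤ c0 * n := by
    calc 128 * (κ0 * n) = (128 * κ0) * n := by ring
      _ ≤ c0 * n := mul_le_mul_of_nonneg_right h128 hn.le
  have hcc : 0 ≤ cc⁻¹ := inv_nonneg.2 hth.c0.le
  have hM0 : 0 ≤ M := hcc.trans hM
  have hsmℓ : ∀ (ω : Cfg) (ℓ : Finset Ed), IsLoop ω ℓ → Small (κ0 * n) ℓ →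
      |G g ℓ| + |G (dvf c) ℓ| ≤ thr m := fun ω ℓ hl hs =>
    sm_d hL hB hQ hn hw hκ0 (by linarith) hsm hκn hl hs
  have hwid := hL.wid (d := κ0 * n) (by linarith)
  have t9 := int_exp_subN (fd_SfQ m T g (dvf c) (κ0 * n)) hδ he1 t8 t3 t4
  refine combN (N := fun ω => (mak K (κ0 * n) D ω).card) (M := M)
    (fd_XR th D p g) (fd_XR th D p fun z => g z + dvf c z)
    (fd_SfQ m (zoneK D K) (fun _ => 0) g (κ0 * n)) (fd_SfQ m T g (dvf c) (κ0 * n))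
    (fd_bigV D p (dvf c) (κ0 * n)) (fd_mak K (κ0 * n) D) hM0 (fun ω => bigV_nonneg _ _ _ _ _)
    (fun ω => ?_) (Real.sqrt_nonneg A1) (Real.sqrt_nonneg C4)
    (Real.sqrt_nonneg (√δ * √(10080 * e1))) hδ ?_ ?_ ?_ t7
  · have h1 := hpt m cc D (zoneK D K) T p K (c0 * n) (κ0 * n) th g (dvf c) ω hth hL.geo
      (by linarith) (by linarith) hL.gK hL.ηK hL.totg (tot_dvf hL.cD) hwid (hsmℓ ω)
      (fun ℓ hl hs hne => vis_bulk hL.geo (by linarith) hL.gK hwid hl hs hne)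
      (fun ℓ hl hs hne => vis_strip hL.geo (by linarith) (by linarith) hL.ηK hwid hL.cD hL.cT hl hs
        hne)
    refine h1.trans (mul_le_mul_of_nonneg_right (mul_le_mul_of_nonneg_left
      (pow_le_pow_left₀ hcc hM _) (Real.exp_pos _).le) ?_)
    exact add_nonneg (abs_nonneg _) (mul_nonneg (by norm_num) (Real.sqrt_nonneg _))
  · rw [Real.sq_sqrt hA1]; exact t1
  · rw [Real.sq_sqrt hC4]; exact t2
  · rw [Real.sq_sqrt (by positivity)]; exact t9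

/-- **The layer theorem.** -/
theorem s_lay [IsProbabilityMeasure P] (hpt : S_pt) (hsub : S_sub) (hem : S_em P)
    (habs : S_abs P) (hmean : S_mean P) (hbig : S_big P) (hmac : S_mac P) : S_lay P := by
  intro m cc c0 R B Q hm0 hm1 hcc hc0 hR hB hQ ε hε
  obtain ⟨c1, C1, α1, hc1, hC1, hα1, hS⟩ := lay_em hem habs hmean hB hQ hm0 hm1
  obtain ⟨c2, C2, hc2, hC2, hGm⟩ := lay_emg hem habs hmean hB hR hm0 hm1
  have hdw : 0 < thr m := H542.Q.thr_pos hm0 hm1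
  have hcm : 0 < Real.cos m := H542.Q.cos_pos_of hm0 hm1
  have hkw : 1 ≤ 2 / Real.cos m := by
    rw [le_div_iff₀ hcm]
    linarith [Real.cos_le_one m]
  obtain ⟨C3, α, hC3, hα, hbg⟩ := big_q hbig
  obtain ⟨κ0, hκ0, q1, q2, q3', q4', q5, q6⟩ := exists_k0 (a := (2 * Q + 36) * B / (10 * thr m))
    (b := (2 * QR R + 36) * B / (10 * thr m)) hc0 (by positivity)
    (div_pos (mul_pos (by linarith [QR_pos R]) hB) (by positivity)) hc1 hc2
  have q3 : (2 * Q + 36) * B * κ0 ≤ thr m := by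
    rw [div_mul_eq_mul_div, div_le_iff₀ (by positivity)] at q3'
    linarith
  have q4 : (2 * QR R + 36) * B * κ0 ≤ thr m := by
    rw [div_mul_eq_mul_div, div_le_iff₀ (by positivity)] at q4'
    linarith
  set M : ℝ := max 1 cc⁻¹ with hM
  have hM1 : 1 ≤ M := le_max_left _ _
  obtain ⟨C4, n4, hC4, hn4, hNb⟩ := hmac κ0 R (M ^ 4) hκ0 hR (one_le_pow₀ hM1)
  set e1 : ℝ := Real.exp (C1 * (((κ0 / κ0) ^ α1 + κ0) * 10 + κ0 * 10 ^ 2)) with he1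
  set A1 : ℝ := Real.exp (C2 * ((1 + κ0) * 4 + κ0 * 4 ^ 2)) with hA1
  set M5 : ℝ := Real.exp (C1 * 2) with hM5
  have he1p : 0 < e1 := Real.exp_pos _
  have hA1p : 0 < A1 := Real.exp_pos _
  have hM5p : 0 < M5 := Real.exp_pos _
  obtain ⟨δ0, hδ0, hδ⟩ := exists_small
    (F := fun x => √(√A1 * √C4) * √(2 * √(√x * √(10080 * e1)) + 8 * x)) (by fun_prop) (by simp) hε
  set δ := δ0 / 2 with hδd
  have hδp : 0 < δ := by positivity
  have hδε := hδ δ hδp (by rw [hδd]; linarith)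
  obtain ⟨κ₁, κ, hκ₁, r1, r2, r3, hκ, r4, r5⟩ := exists_k1 (κ0 := κ0) (M := M5) hκ0 hc1
    (by positivity : 0 < δ / 2) hα1
  obtain ⟨w0, hw0, hw1⟩ := exists_w0 (C3 := C3 * Q * B * (2 / Real.cos m)) (κ0 := κ0) hκ hδp hα
  refine ⟨w0, hw0, fun w hw hww0 => ?_⟩
  obtain ⟨g9, g10, g11⟩ := hw1 w hw hww0
  refine ⟨max (max (1 / κ) (1 / w)) (max n4 1), fun n hn D T p K g c th ν hth hL hν => ?_⟩
  have hνp : IsProbabilityMeasure ν := hν.prob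
  simp only [ge_iff_le, max_le_iff] at hn
  obtain ⟨⟨n1, n2⟩, n3, n5⟩ := hn
  have hnp : 0 < n := by linarith
  have hκn : 1 ≤ κ * n := by rw [div_le_iff₀ hκ] at n1; linarith
  have hwn : 1 ≤ w * n := by rw [div_le_iff₀ hw] at n2; linarith
  have hκκ0 : κ ≤ κ0 := r4.trans r1
  have hκ0n : 1 ≤ κ0 * n := hκn.trans (mul_le_mul_of_nonneg_right hκκ0 hnp.le)
  have hc0n : 128 * (κ0 * n) ≤ c0 * n := by
    calc 128 * (κ0 * n) = (128 * κ0) * n := by ring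
      _ ≤ c0 * n := mul_le_mul_of_nonneg_right q2 hnp.le
  have hQB : 0 ≤ (2 * Q + 36) * B := by positivity
  have hsq : 0 < √κ₁ := Real.sqrt_pos.2 hκ₁
  have hss : √κ₁ * √κ₁ = κ₁ := Real.mul_self_sqrt hκ₁.le
  -- exponential moments
  have t1 : ∫ ω, Real.exp (4 * SfQ m (zoneK D K) (fun _ => 0) g (κ0 * n) ω) ∂ν ≤ A1 := by
    have h := hGm c0 Q w n κ0 4 D T p K g c ν hL hν hκ0 q1 q2 q4 hκ0n
      (by rw [abs_of_pos (by norm_num : (0 : ℝ) < 4)]; exact q6)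
    rwa [abs_of_pos (by norm_num : (0 : ℝ) < 4)] at h
  have t2 : ∫ ω, (M ^ 4) ^ (mak K (κ0 * n) D ω).card ∂ν ≤ C4 :=
    hNb n n3 D p K (c0 * n) ν hL.geo (by linarith) hL.box hν
  have t3 : ∀ s : ℝ, |s| = 10 → ∫ ω, Real.exp (s * SfQ m T g (dvf c) (κ0 * n) ω) ∂ν ≤ e1 := by
    intro s hs
    have h := hS c0 R w n κ0 κ0 s D T p K g c ν hL hν hw hκ0 le_rfl q1 q2 q3 hκ0n
      (by rw [hs]; exact q5)
    rwa [← sq_abs s, hs] at h
  have t4 : ∀ s : ℝ, |s| = 1 / √κ₁ →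
      ∫ ω, Real.exp (s * SfQ m T g (dvf c) (κ * n) ω) ∂ν ≤ M5 := by
    intro s hs
    refine (hS c0 R w n κ κ₁ s D T p K g c ν hL hν hw hκ r4 (by linarith) (by linarith)
      ((mul_le_mul_of_nonneg_left r1 hQB).trans q3) hκn ?_).trans
      (Real.exp_le_exp.2 (mul_le_mul_of_nonneg_left ?_ hC1))
    · rw [hs, mul_one_div, div_le_iff₀ hsq]
      calc κ₁ = √κ₁ * √κ₁ := hss.symm
        _ ≤ c1 * √κ₁ := mul_le_mul_of_nonneg_right r2 hsq.le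
    · rw [← sq_abs s, hs]
      have h2 : κ₁ * (1 / √κ₁) ^ 2 = 1 := by
        rw [div_pow, one_pow, Real.sq_sqrt hκ₁.le, mul_one_div_cancel hκ₁.ne']
      rw [h2]
      linarith
  have t5 : ∫ ω, |SfQ m T g (dvf c) (κ * n) ω| ∂ν ≤ δ / 2 := by
    have h := int_abs_leN (fd_SfQ m T g (dvf c) (κ * n)) (τ := 1 / √κ₁) (by positivity)
      (t4 _ (abs_of_pos (by positivity))) (t4 _ (by rw [abs_neg]; exact abs_of_pos (by positivity)))
    refine (h.trans (le_of_eq ?_)).trans r3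
    rw [div_div_eq_mul_div, div_one]
  have t6 : 2 / Real.cos m * ∫ ω, bigV D p (dvf c) (κ * n) ω ∂ν ≤ δ / 2 := by
    have h := hbg c0 R B Q w n D T p K g c κ ν hL hB hQ.le hw hwn (by linarith) (by linarith) g11
      hnp hν
    have h2 := mul_le_mul_of_nonneg_left h (by linarith : 0 ≤ 2 / Real.cos m)
    have h3 : 0 ≤ C3 * Q * B * (2 / Real.cos m) * (2 * w / κ) ^ α := by positivity
    have e : 2 / Real.cos m * (C3 * Q * B * (2 * w / κ) ^ α) = C3 * Q * B * (2 / Real.cos m) * (2 * w / κ) ^ α := by ring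
    rw [e] at h2
    linarith
  have t7 : ∫ ω, bigV D p (dvf c) (κ0 * n) ω ∂ν ≤ δ :=
    (hbg c0 R B Q w n D T p K g c κ0 ν hL hB hQ.le hw hwn (by linarith) (by linarith)
      (by linarith) hnp hν).trans (le_trans (by
        have h3 : 0 ≤ C3 * Q * B * (2 * w / κ0) ^ α := by positivity
        have e : C3 * Q * B * (2 / Real.cos m) * (2 * w / κ0) ^ α =
          2 / Real.cos m * (C3 * Q * B * (2 * w / κ0) ^ α) := by ring
        rw [e]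
        exact le_mul_of_one_le_left h3 hkw) g10)
  have t8 := lay_first hsub hL hth hB hQ hw hnp hκκ0 q1 q2 q3 hκ0n t5 t6
  exact (lay_core hpt hL hth hB hQ hw hnp q1 q2 q3 hκ0n (le_max_right _ _) hδp.le hA1p.le hC4.le
    he1p.le t1 t2 (t3 10 (abs_of_pos (by norm_num)))
    (t3 (-10) (by rw [abs_neg]; exact abs_of_pos (by norm_num))) t8 t7).trans hδε

end Vale.Agent.P167.N.H662.L
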