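import Vale.Agent.P167.N.Kit
import Vale.Agent.P167.N.H542.Q.Pt
import Vale.Agent.P167.N.H662.L.EM3
import Vale.Agent.P167.N.H662.L.LDefs
import Vale.Agent.P167.N.H662.L.Lay5
import Vale.Agent.P167.N.H760.L.Big
import Vale.Agent.P167.H662.L.Lay6

/-! generated from Vale.Agent.P167.H662.L.Lay6 (q < 1 port) -/

set_option autoImplicit false

namespace Vale.Agent.P167.N.H662.L

open Vale.Agent.P167.H662.L Vale.Agent.P167.H662

open MeasureTheory

open Vale.Agent.P167

/-- **The layer theorem**, from the inputs. -/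
theorem s_layI {q al Ca : ℝ} {P : Measure Cfg} (hI : Inp q al Ca P) (habs : S_abs P) : S_lay P := by
  have hP : IsProbabilityMeasure P := hI.lim.1
  exact s_lay H542.Q.PT.s_pt H542.Q.PT.s_sub (s_em hI) habs
    (H542.Q.s_mean hI.one.pos hI.lim) (H760.L.l_big hI) (H760.L.l_mac hI)

end Vale.Agent.P167.N.H662.L
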