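import Vale.Agent.P167.N.Kit
import Vale.Agent.P167.N.FKA.All
import Vale.Agent.P167.N.H519.GLim
import Vale.Agent.P167.N.H562.Q.SM3
import Vale.Agent.P167.N.H662.L.LDefs
import Vale.Agent.P167.N.H662.L.Lay6
import Vale.Agent.P167.H662.L.Lay7

/-! generated from Vale.Agent.P167.H662.L.Lay7 (q < 1 port) -/

set_option autoImplicit false

namespace Vale.Agent.P167.N.H662.L

open Vale.Agent.P167.H662.L Vale.Agent.P167.H662

open MeasureTheory

open Vale.Agent.P167 Vale.Agent.P167.FKA Vale.Agent.P167.FK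

open Vale.Agent.P167.H519 (IsLim)

/-- The inputs, for every infinite-volume measure. -/
theorem inp_of {q : ℝ} (hq : Kit q) (h : RSW q) {P : Measure Cfg} (hP : IsLim q P) :
    ∃ al Ca : ℝ, Inp q al Ca P := by
  have hq_pos := hq.pos
  obtain ⟨al, Ca, h1, h2, h3⟩ := hq.arm
  exact ⟨al, Ca, hq, h1, h2, h3.1, hP, H562.GL.crossP hP (Vale.Agent.P167.N.FKA.crossFK hq h), H562.QM.crossSP hq h hP⟩

/-- There is an infinite-volume measure. -/
theorem exists_isLim {q : ℝ} (hq : Kit q) (h : RSW q) : ∃ P : Measure Cfg, IsLim q P := by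
  have hq_pos := hq.pos
  obtain ⟨al, Ca, h1, h2, h3⟩ := hq.arm
  exact H519.exists_lim hq h1 h3.1

/-- **The layer theorem.** -/
theorem s_layR {q : ℝ} (hq : Kit q) (h : RSW q) {P : Measure Cfg} (hP : IsLim q P)
    (habs : S_abs P) : S_lay P := by
  have hq_pos := hq.pos
  obtain ⟨al, Ca, hI⟩ := inp_of hq h hP
  exact s_layI hI habs

end Vale.Agent.P167.N.H662.L
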