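import Vale.Agent.P167.N.Kit
import Vale.Agent.P167.N.H542.Q.Pc
import Vale.Agent.P167.N.H662.L.LDefs
import Vale.Agent.P167.H662.L.LDefs2

/-! generated from Vale.Agent.P167.H662.L.LDefs2 (q < 1 port) -/

set_option autoImplicit false

namespace Vale.Agent.P167.N.H662.L

open Vale.Agent.P167.H662.L Vale.Agent.P167.H662

open Finset Filter Topology MeasureTheory

open Vale.Agent.P167 Vale.Agent.P167.BR

open Vale.Agent.P167.H542.Q (Phs)

open Vale.Agent.P167.H562.GL (Nu)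

open Vale.Agent.P167.H825 (dvg lapl domP Box)

open Vale.Agent.P167.H638 (cm)

open Vale.Agent.P167.H638.L (ChiP obox)

open Vale.Agent.P167.H680.Q (alpq)

open Vale.Agent.P167.BVP (Test)

open Vale.Agent.P167.CAQ (Fam)

open scoped ContDiff

/-- `V n f` is the mean of the functional `XR` for a conditioned measure in `S.D n`, base `S.b n`. -/
def LawV (S : CA.Dat) (P : Measure Cfg) (L : Filter ℕ) (V : ℕ → (ℤ × ℤ → ℝ) → ℝ) : Prop :=
  ∃ m cc : ℝ, 0 ≤ m ∧ Ang m ∧ 0 < cc ∧ ∀ᶠ n : ℕ in L,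
    ∃ (th : Finset Ed → ℝ) (ν : Measure Cfg), Vale.Agent.P167.N.H542.Q.Phs m cc (S.D n) th ∧ Nu P ν (S.D n) ∧
      ∀ f : ℤ × ℤ → ℝ, V n f = ∫ x, XR th (S.D n) (S.b n) f x ∂ν

/-- (L-CUT) Model: `H638.L.cut_le` (L12), `H542.geo_ero`, `H542.wide_ero`. -/
def S_cut : Prop :=
  ∀ (S : CA.Dat) (P : Measure Cfg) (L : Filter ℕ) (V : ℕ → (ℤ × ℤ → ℝ) → ℝ), L ≤ atTop →
    S_lay P → LawV S P L V → CutV S L V

end Vale.Agent.P167.N.H662.L
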