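import Vale.Agent.P167.N.KitQ
import Vale.Agent.P167.H662.L.Asm

/-! # P167, `0 < q < 1` (N-version of `H662/L/Asm.lean`) -/

set_option autoImplicit false

namespace Vale.Agent.P167.N.H662.L

open Vale.Agent.P167 Vale.Agent.P167.FKA Vale.Agent.P167.FK

variable {θ β : ℝ}

theorem one_le_q (h0 : 0 < θ) (h1 : Ang θ) : Kit (2 * Real.cos θ) := h1.kit

theorem rsw_q (h0 : 0 < θ) (h1 : Ang θ) : RSW (2 * Real.cos θ) := h1.kit.rsw

end Vale.Agent.P167.N.H662.L
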