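import Vale.Agent.P167.N.Kit
import Vale.Agent.P167.N.H662.L.Abs
import Vale.Agent.P167.N.H662.L.LDefs
import Vale.Agent.P167.N.H662.L.Lay6
import Vale.Agent.P167.N.H662.L.Lay7
import Vale.Agent.P167.H662.L.Lay8

/-! generated from Vale.Agent.P167.H662.L.Lay8 (q < 1 port) -/

set_option autoImplicit false

namespace Vale.Agent.P167.N.H662.L

open Vale.Agent.P167.H662.L Vale.Agent.P167.H662

open MeasureTheory

open Vale.Agent.P167 Vale.Agent.P167.FKA Vale.Agent.P167.FK

open Vale.Agent.P167.H519 (IsLim)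

/-- **The layer theorem.** -/
theorem s_layF {q : ℝ} (hq : Kit q) (h : RSW q) {P : Measure Cfg} (hP : IsLim q P) :
    S_lay P := by
  have hq_pos := hq.pos
  obtain ⟨al, Ca, hI⟩ := inp_of hq h hP
  exact s_layI hI (s_abs hI)

end Vale.Agent.P167.N.H662.L
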